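import Vale.Agent.P207.N4.Q.FlipFr

/-!
# P207, line N4: see `Vale.Agent.P207.N4.Q.FlipFr`
-/
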